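import Vale.Agent.P151.FULL.Seam

/-!
# The consumer of the three-cluster inequality (TC)

`TCS V` is the inequality `P(z is in a cluster of size at least n) * P(x, y in distinct clusters of
size at least n) ≤ C0 * (P(x, z ...) + P(z, y ...))` on every finite set of edges. It gives the
ladder without loss of mass, and the seam of the full answer.
-/

set_option autoImplicit false
set_option linter.unusedSectionVars false

open Finset SimpleGraph Filter Topology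

namespace Vale.Agent.P151.TC.H149

open Vale.Agent.P151 Vale.Agent.P151.QP Vale.Agent.P151.R2.H279

universe u

/-- (TC), in the form used below. -/
def TCS (V : Type u) [DecidableEq V] : Prop :=
  ∃ C0 : ℝ, 1 ≤ C0 ∧ ∀ p : ℝ, 0 ≤ p → p ≤ 1 →
    ∀ (Λ : Finset (Sym2 V)) (n : ℕ) (x y z : V),
      Ex p Λ (big n z) * PD p Λ n x y ≤ C0 * (PD p Λ n x z + PD p Λ n z y)

section step

variable {V : Type u} [DecidableEq V]

/-- One step of the ladder, without loss of mass. -/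
lemma tc_step {C0 : ℝ} (hC0 : 0 ≤ C0) {p : ℝ} (h0 : 0 ≤ p) (h1 : p ≤ 1) {U : Finset V}
    {Λ : Finset (Sym2 V)} {n : ℕ}
    (hT : ∀ x y z : V, Ex p Λ (big n z) * PD p Λ n x y ≤ C0 * (PD p Λ n x z + PD p Λ n z y))
    {A B : V → V → ℝ} (hA : Ker U A) (hB : Ker U B) {c : ℝ}
    (hbig : ∀ z ∈ U, c ≤ Ex p Λ (big n z)) :
    c * ∑ x ∈ U, ∑ y ∈ U, kc U A B x y * PD p Λ n x y ≤
      C0 * (∑ x ∈ U, ∑ y ∈ U, A x y * PD p Λ n x y +
        ∑ x ∈ U, ∑ y ∈ U, B x y * PD p Λ n x y) := by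
  have hP := fun x y => PD_nonneg h0 h1 Λ n x y
  have e1 : c * ∑ x ∈ U, ∑ y ∈ U, kc U A B x y * PD p Λ n x y =
      ∑ x ∈ U, ∑ y ∈ U, ∑ z ∈ U, A x z * B z y * (c * PD p Λ n x y) := by
    rw [Finset.mul_sum]
    refine Finset.sum_congr rfl fun x _ => ?_
    rw [Finset.mul_sum]
    refine Finset.sum_congr rfl fun y _ => ?_
    unfold kc
    rw [Finset.sum_mul, Finset.mul_sum]
    refine Finset.sum_congr rfl fun z _ => ?_
    ring
  have e2 : ∀ x ∈ U, ∀ y ∈ U, ∀ z ∈ U, A x z * B z y * (c * PD p Λ n x y) ≤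
      C0 * (A x z * B z y * PD p Λ n x z + A x z * B z y * PD p Λ n z y) := by
    intro x _ y _ z hz
    have h2 : c * PD p Λ n x y ≤ C0 * (PD p Λ n x z + PD p Λ n z y) :=
      (mul_le_mul_of_nonneg_right (hbig z hz) (hP x y)).trans (hT x y z)
    have h3 := mul_le_mul_of_nonneg_left h2 (mul_nonneg (hA.1 x z) (hB.1 z y))
    refine h3.trans (le_of_eq ?_)
    ring
  have e3 : ∑ x ∈ U, ∑ y ∈ U, ∑ z ∈ U, A x z * B z y * PD p Λ n x z ≤
      ∑ x ∈ U, ∑ z ∈ U, A x z * PD p Λ n x z := by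
    refine Finset.sum_le_sum fun x _ => ?_
    rw [Finset.sum_comm]
    refine Finset.sum_le_sum fun z hz => ?_
    have h2 : ∑ y ∈ U, A x z * B z y * PD p Λ n x z =
        (A x z * PD p Λ n x z) * ∑ y ∈ U, B z y := by
      rw [Finset.mul_sum]
      exact Finset.sum_congr rfl fun y _ => by ring
    rw [h2]
    exact mul_le_of_le_one_right (mul_nonneg (hA.1 x z) (hP x z)) (hB.2.1 z hz)
  have e4 : ∑ x ∈ U, ∑ y ∈ U, ∑ z ∈ U, A x z * B z y * PD p Λ n z y ≤
      ∑ z ∈ U, ∑ y ∈ U, B z y * PD p Λ n z y := by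
    have h2 : ∑ x ∈ U, ∑ y ∈ U, ∑ z ∈ U, A x z * B z y * PD p Λ n z y =
        ∑ z ∈ U, ∑ y ∈ U, ∑ x ∈ U, A x z * B z y * PD p Λ n z y := by
      calc ∑ x ∈ U, ∑ y ∈ U, ∑ z ∈ U, A x z * B z y * PD p Λ n z y
          = ∑ x ∈ U, ∑ z ∈ U, ∑ y ∈ U, A x z * B z y * PD p Λ n z y :=
            Finset.sum_congr rfl fun x _ => Finset.sum_comm
        _ = ∑ z ∈ U, ∑ x ∈ U, ∑ y ∈ U, A x z * B z y * PD p Λ n z y := Finset.sum_comm
        _ = _ := Finset.sum_congr rfl fun z _ => Finset.sum_comm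
    rw [h2]
    refine Finset.sum_le_sum fun z hz => Finset.sum_le_sum fun y _ => ?_
    have h3 : ∑ x ∈ U, A x z * B z y * PD p Λ n z y =
        (B z y * PD p Λ n z y) * ∑ x ∈ U, A x z := by
      rw [Finset.mul_sum]
      exact Finset.sum_congr rfl fun x _ => by ring
    rw [h3]
    exact mul_le_of_le_one_right (mul_nonneg (hB.1 z y) (hP z y)) (hA.2.2 z hz)
  rw [e1]
  calc ∑ x ∈ U, ∑ y ∈ U, ∑ z ∈ U, A x z * B z y * (c * PD p Λ n x y)
      ≤ ∑ x ∈ U, ∑ y ∈ U, ∑ z ∈ U,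
          C0 * (A x z * B z y * PD p Λ n x z + A x z * B z y * PD p Λ n z y) :=
        Finset.sum_le_sum fun x hx => Finset.sum_le_sum fun y hy =>
          Finset.sum_le_sum fun z hz => e2 x hx y hy z hz
    _ = C0 * (∑ x ∈ U, ∑ y ∈ U, ∑ z ∈ U, A x z * B z y * PD p Λ n x z +
          ∑ x ∈ U, ∑ y ∈ U, ∑ z ∈ U, A x z * B z y * PD p Λ n z y) := by
        simp only [← Finset.mul_sum, Finset.sum_add_distrib]
    _ ≤ _ := mul_le_mul_of_nonneg_left (add_le_add e3 e4) hC0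

/-- The iterated ladder. -/
theorem tc_iter (hT : TCS V) (hL0 : Stmts.Ladder0Stmt V) {p0 c0 : ℝ}
    (hp0 : 0 < p0) (hc0 : 0 < c0) (d : ℕ) (hd : 1 ≤ d) :
    ∃ C : ℝ, 1 ≤ C ∧ ∀ (p : ℝ), p0 ≤ p → p ≤ 1 →
      ∀ (F U : Finset V) (Λ : Finset (Sym2 V)), U ⊆ F → (∀ e ∈ Λ, ∀ v ∈ e, v ∈ F) →
      Λ.card ≤ d * F.card →
      ∀ M : V → V → ℝ, (∀ x y, 0 ≤ M x y) → (∀ x y, M x y ≤ 1) →
      (∀ x y, x ≠ y → M x y ≠ 0 → s(x, y) ∈ Λ) → (∀ j, Ker U (qq U M j)) →
      ∀ (n J : ℕ), 2 ≤ n → (∀ z ∈ U, c0 ≤ Ex p Λ (big n z)) →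
      ∑ x ∈ U, ∑ y ∈ U, qq U M J x y * PD p Λ n x y ≤
        C ^ (J + 1) / Real.sqrt n * F.card := by
  obtain ⟨C1, hC1, H1⟩ := hT
  obtain ⟨C2, hC2, H2⟩ := hL0
  set K : ℝ := 2 * C1 / c0 with hK
  set B : ℝ := C2 * d / p0 with hB
  have hdr : (1 : ℝ) ≤ d := by exact_mod_cast hd
  have hK0 : 0 ≤ K := by rw [hK]; positivity
  set C : ℝ := max 1 (max K B) with hC
  have hCK : K ≤ C := (le_max_left _ _).trans (le_max_right _ _)
  have hCB : B ≤ C := (le_max_right _ _).trans (le_max_right _ _)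
  have hC1' : 1 ≤ C := le_max_left _ _
  refine ⟨C, hC1', ?_⟩
  intro p hp0p hp1 F U Λ hUF hΛF hcard M hM0 hM1 hMΛ hKer n J hn hbig
  have hp : 0 ≤ p := hp0.le.trans hp0p
  have hF0 : (0 : ℝ) ≤ F.card := Nat.cast_nonneg _
  have hn0 : (0 : ℝ) < n := by exact_mod_cast (by omega : 0 < n)
  have hs : 0 < Real.sqrt n := Real.sqrt_pos.2 hn0
  set e : ℕ → ℝ := fun j => ∑ x ∈ U, ∑ y ∈ U, qq U M j x y * PD p Λ n x y with he
  have he0 : ∀ j, 0 ≤ e j := by
    intro j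
    apply Finset.sum_nonneg; intro x _
    apply Finset.sum_nonneg; intro y _
    exact mul_nonneg ((hKer j).1 x y) (PD_nonneg hp hp1 Λ _ x y)
  have hbase : e 0 ≤ C ^ (0 + 1) / Real.sqrt n * F.card := by
    have h := H2 p hp hp1 F U Λ d hd hUF hΛF hcard M hM0 hM1 hMΛ n hn
    have h' : p0 * e 0 ≤ C2 * d * F.card / Real.sqrt n :=
      le_trans (mul_le_mul_of_nonneg_right hp0p (he0 0)) h
    have h2 : e 0 ≤ (C2 * d * F.card / Real.sqrt n) / p0 := by
      rw [le_div_iff₀ hp0]; linarith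
    refine h2.trans ?_
    have h3 : (C2 * d * F.card / Real.sqrt n) / p0 = B / Real.sqrt n * F.card := by
      rw [hB]; field_simp
    rw [h3, zero_add, pow_one]
    apply mul_le_mul_of_nonneg_right _ hF0
    exact div_le_div_of_nonneg_right hCB hs.le
  have hind : ∀ j, e j ≤ C ^ (j + 1) / Real.sqrt n * F.card := by
    intro j
    induction j with
    | zero => exact hbase
    | succ j ih =>
      have h := tc_step (by linarith : (0 : ℝ) ≤ C1) hp hp1 (H1 p hp hp1 Λ n) (hKer j) (hKer j)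
        hbig
      have h' : c0 * e (j + 1) ≤ C1 * (e j + e j) := h
      have h2 : e (j + 1) ≤ K * e j := by
        rw [hK, div_mul_eq_mul_div, le_div_iff₀ hc0]
        linarith
      calc e (j + 1) ≤ K * e j := h2
        _ ≤ C * e j := mul_le_mul_of_nonneg_right hCK (he0 j)
        _ ≤ C * (C ^ (j + 1) / Real.sqrt n * F.card) :=
          mul_le_mul_of_nonneg_left ih (by linarith)
        _ = C ^ (j + 1 + 1) / Real.sqrt n * F.card := by rw [pow_succ C (j + 1)]; ring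
  exact hind J

end step

section drop

variable {V : Type u} [DecidableEq V] {G : SimpleGraph V} [G.LocallyFinite]

open Classical in
theorem drop_core2 (hG : G.Connected) {d : ℕ} (hd1 : 1 ≤ d) (hd : ∀ v, G.degree v ≤ d)
    (hT : TCS V) (hL0 : Stmts.Ladder0Stmt V) (hW : Stmts.WindowStmt V)
    (hH : Stmts.HeatStmt G d) (p0 c0 : ℝ) (hp0 : 0 < p0) (hc0 : 0 < c0) :
    ∃ C : ℝ, 1 ≤ C ∧ ∀ (p : ℝ) (n m J r : ℕ), p0 ≤ p → p ≤ 1 →
      (∀ x, c0 ≤ phiB G n x p) → n = m ^ 2 → 2 ≤ m → 2 ^ J ≤ n →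
      (∀ x, 8 * n ^ 3 ≤ (ballF G x r).card) → C * r ^ 2 * (1 + Real.log n) ≤ 2 ^ J →
      ∀ F : Finset V,
        ∑ o ∈ F.filter (fun o => ballF G o (n ^ 2) ⊆ F),
          Ex p (edgesIn G F) (ww (1 / (n : ℝ) ^ 2) (1 / n) o) ≤
        C * (C ^ J / Real.sqrt m) * F.card := by
  obtain ⟨C1, hC1, H1⟩ := tc_iter hT hL0 hp0 hc0 d hd1
  obtain ⟨C2, hC2, H2⟩ := hH
  set C : ℝ := max (max C1 (3 * C2)) (18 / c0 * C1) with hC
  have hCC1 : C1 ≤ C := (le_max_left _ _).trans (le_max_left _ _)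
  have hCC2 : 3 * C2 ≤ C := (le_max_right _ _).trans (le_max_left _ _)
  have hCcc : 18 / c0 * C1 ≤ C := le_max_right _ _
  have hC1' : 1 ≤ C := hC1.trans hCC1
  refine ⟨C, hC1', ?_⟩
  intro p n m J r hp hp1 hphi hnm hm2 h2J hvol hJ F
  have hp' : 0 ≤ p := hp0.le.trans hp
  set Λ := edgesIn G F with hΛ
  set U := F.filter (fun z => ballF G z n ⊆ F) with hU
  have hUF : U ⊆ F := Finset.filter_subset _ _
  have hm1 : 1 ≤ m := by omega
  have hmn : m ≤ n := by nlinarith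
  have hn : 2 ≤ n := by nlinarith
  have hnn : n + 2 ^ J ≤ n ^ 2 := by nlinarith
  have hnR : (2 : ℝ) ≤ n := by exact_mod_cast hn
  have hmR2 : (2 : ℝ) ≤ m := by exact_mod_cast hm2
  have hn0 : (0 : ℝ) < n := by linarith
  have hm0 : (0 : ℝ) < m := by linarith
  have hnmR : (n : ℝ) = (m : ℝ) ^ 2 := by rw [hnm]; push_cast; ring
  have hΛF : ∀ e ∈ Λ, ∀ v ∈ e, v ∈ F := fun e he => (mem_edgesIn.1 he).2
  have hker := fun j => (walk G hd1 hd U j).1
  have hbig : ∀ z ∈ U, c0 ≤ Ex p Λ (big n z) := by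
    intro z hz
    rw [hΛ, Ex_big_local hG p (Finset.mem_filter.1 hz).2]
    exact hphi z
  have hbigm : ∀ z ∈ U, c0 ≤ Ex p Λ (big m z) := by
    intro z hz
    refine (hbig z hz).trans (Ex_mono hp' hp1 fun S _ => ?_)
    unfold big
    split_ifs with h1 h2
    · exact le_rfl
    · exact absurd (hmn.trans h1) h2
    · exact zero_le_one
    · exact le_rfl
  -- the ladder
  have hlad := H1 p hp hp1 F U Λ hUF hΛF (card_edgesIn_le_mul hd F) (kM G d U)
    (kM_nonneg G hd1 hd U)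
    (by
      intro x y
      by_cases hxy : x ∈ U ∧ y ∈ U
      · exact (Finset.single_le_sum (f := fun y => kM G d U x y)
          (fun y _ => kM_nonneg G hd1 hd U x y) hxy.2).trans ((kM_ker G hd1 hd U).2.1 x hxy.1)
      · unfold kM
        rw [if_neg hxy]
        norm_num)
    (by
      intro x y hxy h
      unfold kM at h
      split_ifs at h with h1 h2
      · exact mk_mem_edgesIn.2 ⟨h2, hUF h1.1, hUF h1.2⟩
      · exact absurd rfl h
      · exact absurd rfl h)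
    hker m J hm2 hbigm
  -- the heat kernel
  have hκ : ∀ x y, qq U (kM G d U) J x y ≤ 1 / (n : ℝ) ^ 3 := by
    apply H2 U (1 / (n : ℝ) ^ 3) r J (by positivity)
    · rw [div_le_one (by positivity)]
      exact one_le_pow₀ (by linarith)
    · intro x
      have h1 := hvol x
      have h2 : (8 : ℝ) / (1 / (n : ℝ) ^ 3) = ((8 * n ^ 3 : ℕ) : ℝ) := by
        push_cast
        field_simp
      rw [h2]
      exact_mod_cast h1
    · refine le_trans ?_ hJ
      have h1 : Real.log (1 / (1 / (n : ℝ) ^ 3)) = 3 * Real.log n := by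
        rw [one_div_one_div, Real.log_pow]
        norm_num
      rw [h1]
      have h2 : 0 ≤ Real.log n := Real.log_nonneg (by linarith)
      have h3 : C2 * (r : ℝ) ^ 2 * (1 + 3 * Real.log n) ≤
          C2 * (r : ℝ) ^ 2 * (3 * (1 + Real.log n)) := by
        apply mul_le_mul_of_nonneg_left _ (by positivity)
        linarith
      refine h3.trans ?_
      have h4 : 0 ≤ (r : ℝ) ^ 2 * (1 + Real.log n) := by positivity
      nlinarith
  -- the window
  have hn1 : 1 / (n : ℝ) ≤ 1 := by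
    rw [div_le_one hn0]; linarith
  have hn2 : 1 / (n : ℝ) ^ 2 ≤ 1 := by
    rw [div_le_one (by positivity)]
    exact one_le_pow₀ (by linarith)
  have hwin := hW p hp' hp1 F U Λ hUF hΛF (qq U (kM G d U) J) (hker J) (1 / (n : ℝ) ^ 3) hκ
    (1 / n) (1 / (n : ℝ) ^ 2) (1 / n) (c0 / 2) (by positivity) hn1 (by positivity) hn2
    (by positivity) hn1 (by positivity)
    (fun b hb => gh_ge_of_big hp' hp1 Λ (by omega) le_rfl b (hbig b hb)) m
  have hlow : ∑ o ∈ F.filter (fun o => ballF G o (n ^ 2) ⊆ F),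
      Ex p Λ (ww (1 / (n : ℝ) ^ 2) (1 / n) o) ≤
      ∑ o ∈ U, (∑ b ∈ U, qq U (kM G d U) J o b) * Ex p Λ (ww (1 / (n : ℝ) ^ 2) (1 / n) o) := by
    have hww : ∀ o, 0 ≤ Ex p Λ (ww (1 / (n : ℝ) ^ 2) (1 / n) o) := by
      intro o
      exact Ex_nonneg hp' hp1 fun S _ =>
        ww_nonneg (by positivity) hn2 (by positivity) hn1 o S
    have hsub : F.filter (fun o => ballF G o (n ^ 2) ⊆ F) ⊆ U := by
      intro o ho
      rw [Finset.mem_filter] at ho
      rw [hU, Finset.mem_filter]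
      exact ⟨ho.1, (ballF_mono G o (by nlinarith)).trans ho.2⟩
    calc ∑ o ∈ F.filter (fun o => ballF G o (n ^ 2) ⊆ F),
          Ex p Λ (ww (1 / (n : ℝ) ^ 2) (1 / n) o)
        = ∑ o ∈ F.filter (fun o => ballF G o (n ^ 2) ⊆ F), (∑ b ∈ U, qq U (kM G d U) J o b) *
          Ex p Λ (ww (1 / (n : ℝ) ^ 2) (1 / n) o) := by
          apply Finset.sum_congr rfl
          intro o ho
          rw [Finset.mem_filter] at ho
          rw [(walk G hd1 hd U J).2 o, one_mul]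
          intro z hz
          rw [hU, Finset.mem_filter]
          have h5 : ballF G z n ⊆ ballF G o (n ^ 2) := by
            intro w hw
            exact ballF_mono G o hnn (ballF_add G hw hz)
          exact ⟨ho.2 (ballF_mono G o (by omega) hz), h5.trans ho.2⟩
      _ ≤ _ := by
          apply Finset.sum_le_sum_of_subset_of_nonneg hsub
          intro o ho _
          exact mul_nonneg (Finset.sum_nonneg fun b _ => (hker J).1 o b) (hww o)
  set X := ∑ o ∈ F.filter (fun o => ballF G o (n ^ 2) ⊆ F),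
      Ex p Λ (ww (1 / (n : ℝ) ^ 2) (1 / n) o) with hX
  have hF0 : (0 : ℝ) ≤ F.card := Nat.cast_nonneg _
  have hs0 : 0 < Real.sqrt m := Real.sqrt_pos.2 hm0
  have hss : Real.sqrt m * Real.sqrt m = m := Real.mul_self_sqrt hm0.le
  have hs1 : 1 ≤ Real.sqrt m := by
    rw [Real.one_le_sqrt]; linarith
  have hmn' : (m : ℝ) / n ≤ 1 / Real.sqrt m := by
    rw [hnmR, div_le_div_iff₀ (by positivity) hs0, one_mul]
    nlinarith
  have hinv : 1 / (n : ℝ) ≤ 1 / Real.sqrt m := by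
    refine le_trans ?_ hmn'
    apply div_le_div_of_nonneg_right _ hn0.le
    linarith
  have hmain : c0 / 2 * X ≤ (9 * C1 ^ (J + 1) / Real.sqrt m) * F.card := by
    have h1 : c0 / 2 * X ≤ c0 / 2 * ∑ o ∈ U, (∑ b ∈ U, qq U (kM G d U) J o b) *
        Ex p Λ (ww (1 / (n : ℝ) ^ 2) (1 / n) o) :=
      mul_le_mul_of_nonneg_left hlow (by positivity)
    refine h1.trans (hwin.trans ?_)
    have h2 : 5 * (1 / (n : ℝ) ^ 3) * F.card / (1 / (n : ℝ) ^ 2) = 5 * (1 / n) * F.card := by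
      field_simp
    have h3 : (1 / (n : ℝ) + 1 / (n : ℝ) ^ 2 + 1 / n) * m * F.card ≤
        3 * (m / n) * F.card := by
      apply mul_le_mul_of_nonneg_right _ hF0
      have h4 : 1 / (n : ℝ) ^ 2 ≤ 1 / n := by
        apply one_div_le_one_div_of_le hn0
        nlinarith
      have h5 : (0 : ℝ) ≤ m := Nat.cast_nonneg _
      calc (1 / (n : ℝ) + 1 / (n : ℝ) ^ 2 + 1 / n) * m ≤ (1 / (n : ℝ) + 1 / n + 1 / n) * m := by
            apply mul_le_mul_of_nonneg_right _ h5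
            linarith
        _ = 3 * (m / n) := by ring
    have h6 : 3 * ((m : ℝ) / n) * F.card ≤ 3 * (1 / Real.sqrt m) * F.card := by
      apply mul_le_mul_of_nonneg_right _ hF0
      linarith
    have h7 : 5 * (1 / (n : ℝ)) * F.card ≤ 5 * (1 / Real.sqrt m) * F.card := by
      apply mul_le_mul_of_nonneg_right _ hF0
      linarith
    have h8 : 1 ≤ C1 ^ (J + 1) := one_le_pow₀ hC1
    have h9 : 1 / Real.sqrt m ≤ C1 ^ (J + 1) / Real.sqrt m :=
      div_le_div_of_nonneg_right h8 hs0.le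
    have h10 : 8 * (1 / Real.sqrt m) * F.card ≤ 8 * (C1 ^ (J + 1) / Real.sqrt m) * F.card := by
      apply mul_le_mul_of_nonneg_right _ hF0
      linarith
    rw [h2]
    calc 5 * (1 / (n : ℝ)) * F.card + ∑ o ∈ U, ∑ b ∈ U, qq U (kM G d U) J o b * PD p Λ m o b +
          (1 / (n : ℝ) + 1 / (n : ℝ) ^ 2 + 1 / n) * m * F.card
        ≤ 5 * (1 / Real.sqrt m) * F.card + C1 ^ (J + 1) / Real.sqrt m * F.card +
          3 * (1 / Real.sqrt m) * F.card := by
          apply add_le_add (add_le_add h7 hlad) (h3.trans h6)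
      _ = 8 * (1 / Real.sqrt m) * F.card + C1 ^ (J + 1) / Real.sqrt m * F.card := by ring
      _ ≤ 8 * (C1 ^ (J + 1) / Real.sqrt m) * F.card + C1 ^ (J + 1) / Real.sqrt m * F.card := by
          linarith
      _ = (9 * C1 ^ (J + 1) / Real.sqrt m) * F.card := by ring
  have hX2 : X ≤ 2 / c0 * ((9 * C1 ^ (J + 1) / Real.sqrt m) * F.card) := by
    calc X = 2 / c0 * (c0 / 2 * X) := by field_simp
      _ ≤ _ := mul_le_mul_of_nonneg_left hmain (by positivity)
  refine hX2.trans ?_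
  rw [← mul_assoc]
  apply mul_le_mul_of_nonneg_right _ hF0
  have hC0 : 0 ≤ C := by linarith
  have e1 : 2 / c0 * (9 * C1 ^ (J + 1) / Real.sqrt m) =
      (18 / c0 * C1) * (C1 ^ J / Real.sqrt m) := by ring
  rw [e1]
  apply mul_le_mul hCcc _ (by positivity) hC0
  apply div_le_div_of_nonneg_right _ hs0.le
  exact pow_le_pow_left₀ (by linarith) hCC1 J

/-- The drop of the tail between `n` and `n ^ 2`. -/
def Drop2 (G : SimpleGraph V) [G.LocallyFinite] : Prop :=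
  ∀ (p0 c0 : ℝ), 0 < p0 → 0 < c0 → ∃ C : ℝ, 1 ≤ C ∧ ∀ (p : ℝ) (n m J r : ℕ), p0 ≤ p → p ≤ 1 →
    (∀ x, c0 ≤ phiB G n x p) → n = m ^ 2 → 2 ≤ m → 2 ^ J ≤ n →
    (∀ x, 8 * n ^ 3 ≤ (ballF G x r).card) → C * r ^ 2 * (1 + Real.log n) ≤ 2 ^ J →
    ∀ x, phiB G n x p - phiB G (n ^ 2) x p ≤ C * (C ^ J / Real.sqrt m)

open Classical in
/-- From averages over Foelner sets to every vertex. -/
theorem drop2 [Infinite V] (hT : TCS V) (hG : G.Connected) {R : Finset V}
    (hR : ∀ x : V, ∃ g : G ≃g G, g x ∈ R) (hAm : IsAmenable G) : Drop2 G := by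
  obtain ⟨d, hd1, hd⟩ : ∃ d : ℕ, 1 ≤ d ∧ ∀ v, G.degree v ≤ d := by
    obtain ⟨b, hb1, hb⟩ := ball_bound hG (reps' hR) 1
    refine ⟨b, hb1, fun v => le_trans ?_ (hb v)⟩
    rw [← SimpleGraph.card_neighborFinset_eq_degree]
    apply Finset.card_le_card
    intro w hw
    rw [SimpleGraph.mem_neighborFinset] at hw
    rw [mem_ballF_iff hG, SimpleGraph.dist_comm]
    exact (SimpleGraph.dist_eq_one_iff_adj.2 hw).le
  intro p0 c0 hp0 hc0
  obtain ⟨C, hC1, hC⟩ := drop_core2 hG hd1 hd hT (ladder0 varStmt Th.thLow) windowStmt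
    (H820.heat hG hR hAm hd1 hd) p0 c0 hp0 hc0
  obtain ⟨c, hc, D, hcD⟩ := orbit_count hG hR
  have hC0 : 0 ≤ C := by linarith
  set C' : ℝ := max C (8 * C / c) with hC'
  have hCC' : C ≤ C' := le_max_left _ _
  have h8C : 8 * C / c ≤ C' := le_max_right _ _
  refine ⟨C', hC1.trans hCC', ?_⟩
  intro p n m J r hp hp1 hphi hnm hm2 h2J hr hJ x
  have hn : 2 ≤ n := by nlinarith
  have h0 : 0 ≤ p := hp0.le.trans hp
  have hn2 : n ≤ n ^ 2 := by nlinarith
  have hnR : (1 : ℝ) ≤ n := by exact_mod_cast (by omega : 1 ≤ n)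
  have hlog : 0 ≤ Real.log n := Real.log_nonneg hnR
  have hJ' : C * r ^ 2 * (1 + Real.log n) ≤ 2 ^ J := by
    refine le_trans ?_ hJ
    apply mul_le_mul_of_nonneg_right _ (by linarith)
    exact mul_le_mul_of_nonneg_right hCC' (by positivity)
  have hmain := hC p n m J r hp hp1 hphi hnm hm2 h2J hr hJ'
  obtain ⟨F, hFne, hF⟩ := foelner_deep hG hR hAm (D + n ^ 2) (δ := 1 / 2) (by norm_num)
  have hF0 : (0 : ℝ) < F.card := by exact_mod_cast hFne.card_pos
  set P := F.filter fun v => (∃ g : G ≃g G, g x = v) ∧ ballF G v (n ^ 2) ⊆ F with hP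
  have hcP : c * F.card ≤ P.card := hcD x (n ^ 2) F hF
  set t := phiB G n x p - phiB G (n ^ 2) x p with ht
  have ht0 : 0 ≤ t := by
    have := phiB_anti hG h0 hp1 hn2 x
    rw [ht]; linarith
  have hnR2 : (2 : ℝ) ≤ n := by exact_mod_cast hn
  have hnn1 : 1 / (n : ℝ) ≤ 1 := by
    rw [div_le_one (by linarith)]; linarith
  have hnn2 : 1 / (n : ℝ) ^ 2 ≤ 1 := by
    rw [div_le_one (by positivity)]
    exact one_le_pow₀ (by linarith)
  have hsum : ∑ o ∈ P, Ex p (edgesIn G F) (ww (1 / (n : ℝ) ^ 2) (1 / n) o) ≤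
      C * (C ^ J / Real.sqrt m) * F.card := by
    refine le_trans ?_ (hmain F)
    apply Finset.sum_le_sum_of_subset_of_nonneg
    · intro o ho
      rw [hP, Finset.mem_filter] at ho
      rw [Finset.mem_filter]
      exact ⟨ho.1, ho.2.2⟩
    · intro o _ _
      exact Ex_nonneg h0 hp1 fun S _ =>
        ww_nonneg (by positivity) hnn2 (by positivity) hnn1 o S
  set E : ℝ := C ^ J / Real.sqrt m with hE
  have hE0 : 0 ≤ E := by rw [hE]; positivity
  have hlow : c * F.card * t ≤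
      8 * ∑ o ∈ P, Ex p (edgesIn G F) (ww (1 / (n : ℝ) ^ 2) (1 / n) o) := by
    calc c * F.card * t ≤ P.card * t := mul_le_mul_of_nonneg_right hcP ht0
      _ = ∑ v ∈ P, t := by rw [Finset.sum_const, nsmul_eq_mul]
      _ = ∑ v ∈ P, Ex p (edgesIn G F) (fun S => big n v S - big (n ^ 2) v S) := by
          apply Finset.sum_congr rfl
          intro v hv
          rw [hP, Finset.mem_filter] at hv
          obtain ⟨_, ⟨g, rfl⟩, hb⟩ := hv
          rw [Ex_sub, Ex_big_local hG p ((ballF_mono G _ hn2).trans hb), Ex_big_local hG p hb,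
            phiB_aut hG g h0 hp1, phiB_aut hG g h0 hp1, ht]
      _ ≤ ∑ v ∈ P, 8 * Ex p (edgesIn G F) (ww (1 / (n : ℝ) ^ 2) (1 / n) v) := by
          apply Finset.sum_le_sum
          intro v _
          rw [← Ex_const_mul]
          exact Ex_mono h0 hp1 fun S _ => big_sub_le_ww hn v S
      _ = _ := by rw [Finset.mul_sum]
  have h9 : c * F.card * t ≤ 8 * (C * E * F.card) := hlow.trans (by linarith)
  have h10 : c * t ≤ 8 * C * E := by
    have h11 : F.card * (c * t) ≤ F.card * (8 * C * E) := by linarith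
    exact le_of_mul_le_mul_left h11 hF0
  have h12 : t ≤ 8 * C / c * E := by
    rw [div_mul_eq_mul_div, le_div_iff₀ hc]
    linarith
  refine h12.trans ?_
  have h13 : E ≤ C' ^ J / Real.sqrt m := by
    rw [hE]
    have : C ^ J ≤ C' ^ J := pow_le_pow_left₀ hC0 hCC' J
    gcongr
  exact mul_le_mul h8C h13 hE0 (hC0.trans hCC')

end drop

section param

variable {V : Type u} [DecidableEq V] {G : SimpleGraph V} [G.LocallyFinite]

/-- The choice of the parameters. -/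
def Par2 (G : SimpleGraph V) [G.LocallyFinite] : Prop :=
  ∀ C : ℝ, 1 ≤ C → ∃ k0 : ℕ, ∀ k : ℕ, k0 ≤ k → ∃ m J r : ℕ, 2 ^ (2 ^ k) = m ^ 2 ∧ 2 ≤ m ∧
    2 ^ J ≤ 2 ^ (2 ^ k) ∧ (∀ x, 8 * (2 ^ (2 ^ k)) ^ 3 ≤ (ballF G x r).card) ∧
    C * r ^ 2 * (1 + Real.log ((2 ^ (2 ^ k) : ℕ) : ℝ)) ≤ 2 ^ J ∧
    C * (C ^ J / Real.sqrt m) ≤ (1 / 2) ^ k

theorem param2 (hG : G.Connected) {R : Finset V} (hR : ∀ x : V, ∃ g : G ≃g G, g x ∈ R) {o : V}
    (hgr : ∀ D : ℕ, ∃ N : ℕ, ∀ n : ℕ, N ≤ n → n ^ D < (ballF G o n).card) : Par2 G := by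
  intro C hC
  obtain ⟨c0, hc0⟩ : ∃ c0 : ℕ, C ≤ 2 ^ c0 := by
    obtain ⟨c0, hc0⟩ := pow_unbounded_of_one_lt C (show (1 : ℝ) < 2 by norm_num)
    exact ⟨c0, hc0.le⟩
  obtain ⟨B, hB⟩ : ∃ B : ℕ, B = 24 * (c0 + 1) := ⟨_, rfl⟩
  have hBpos : 0 < B := by omega
  obtain ⟨D, hD⟩ := R2.H279.cobounded hG hR
  obtain ⟨N, hN⟩ := hgr (8 * B)
  obtain ⟨K1, hK1⟩ := R2.H279.sq_le_two_pow (B * (c0 + 8))
  refine ⟨max K1 (max 8 (max (D + 1) (N + 1))), fun k hk => ?_⟩
  have hkK1 : K1 ≤ k := le_trans (le_max_left _ _) hk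
  have hk' : max 8 (max (D + 1) (N + 1)) ≤ k := le_trans (le_max_right _ _) hk
  have hk3 : 8 ≤ k := le_trans (le_max_left _ _) hk'
  have hk'' : max (D + 1) (N + 1) ≤ k := le_trans (le_max_right _ _) hk'
  have hkD : D + 1 ≤ k := le_trans (le_max_left _ _) hk''
  have hkN : N + 1 ≤ k := le_trans (le_max_right _ _) hk''
  have hbig := hK1 k hkK1
  obtain ⟨i, hi⟩ : ∃ i : ℕ, i = 2 ^ k / B := ⟨_, rfl⟩
  have hi3 : B * i ≤ 2 ^ k := by rw [hi]; exact Nat.mul_div_le _ _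
  have hi4 : 2 ^ k < B * (i + 1) := by
    rw [hi, mul_comm]
    exact (Nat.div_lt_iff_lt_mul hBpos).1 (Nat.lt_succ_self _)
  have hi5 : c0 + k + 4 ≤ i := by
    rw [hi, Nat.le_div_iff_mul_le hBpos]
    refine le_trans ?_ hbig
    have h2 : c0 + k + 4 ≤ (c0 + 8) * (k + 1) ^ 2 := by
      calc c0 + k + 4 ≤ (c0 + 8) * (k + 1) := by nlinarith [Nat.zero_le (c0 * k)]
        _ ≤ (c0 + 8) * (k + 1) ^ 2 := Nat.mul_le_mul_left _ (Nat.le_self_pow (by norm_num) _)
    calc (c0 + k + 4) * B ≤ ((c0 + 8) * (k + 1) ^ 2) * B := Nat.mul_le_mul_right _ h2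
      _ = B * (c0 + 8) * (k + 1) ^ 2 := by ring
  obtain ⟨J, hJ⟩ : ∃ J : ℕ, J = c0 + 2 * i + k + 1 := ⟨_, rfl⟩
  have hJ3 : J + 1 ≤ 3 * i := by omega
  obtain ⟨k', hk'e⟩ : ∃ k', k = k' + 2 := ⟨k - 2, by omega⟩
  refine ⟨2 ^ (2 ^ (k - 1)), J, 2 ^ i, ?_, ?_, ?_, ?_, ?_, ?_⟩
  · rw [← pow_mul]
    congr 1
    rw [hk'e, show k' + 2 - 1 = k' + 1 by omega, pow_succ 2 (k' + 1)]
  · calc 2 = 2 ^ 1 := by norm_num
      _ ≤ 2 ^ (2 ^ (k - 1)) := Nat.pow_le_pow_right (by norm_num) Nat.one_le_two_pow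
  · apply Nat.pow_le_pow_right (by norm_num)
    nlinarith
  · -- the volume
    intro x
    obtain ⟨φ, hφ⟩ := hD o x
    have h1 : (ballF G o (2 ^ (i - 1))).card ≤ (ballF G x (2 ^ i)).card := by
      rw [← card_ballF_aut hG φ]
      apply Finset.card_le_card
      intro z hz
      rw [mem_ballF_iff hG] at hz ⊢
      have h2 := hG.dist_triangle (u := z) (v := φ o) (w := x)
      have h3 : D ≤ 2 ^ (i - 1) := by
        have := Nat.lt_two_pow_self (n := i - 1)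
        omega
      have h4 : 2 ^ i = 2 ^ (i - 1) + 2 ^ (i - 1) := by
        have : i = (i - 1) + 1 := by omega
        conv_lhs => rw [this, pow_succ]
        omega
      omega
    refine le_trans ?_ h1
    have hNi : N ≤ 2 ^ (i - 1) := by
      have := Nat.lt_two_pow_self (n := i - 1)
      omega
    have h5 := hN (2 ^ (i - 1)) hNi
    refine le_trans ?_ h5.le
    rw [← pow_mul, ← pow_mul, show (8 : ℕ) = 2 ^ 3 by norm_num, ← pow_add]
    apply Nat.pow_le_pow_right (by norm_num)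
    obtain ⟨i', hi'⟩ : ∃ i', i = i' + 1 := ⟨i - 1, by omega⟩
    subst hi'
    rw [Nat.add_sub_cancel]
    have h6 : 4 * B ≤ 2 ^ k := by
      refine le_trans ?_ hbig
      have : 4 ≤ (c0 + 8) * (k + 1) ^ 2 := by
        calc 4 ≤ (c0 + 8) * 1 := by omega
          _ ≤ (c0 + 8) * (k + 1) ^ 2 := Nat.mul_le_mul_left _ (Nat.one_le_pow _ _ (by omega))
      calc 4 * B ≤ ((c0 + 8) * (k + 1) ^ 2) * B := Nat.mul_le_mul_right _ this
        _ = B * (c0 + 8) * (k + 1) ^ 2 := by ring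
    have h7 : 2 ^ 3 * B = 8 * B := by norm_num
    have h8 : 2 ^ k < B * i' + 2 * B := by
      calc 2 ^ k < B * (i' + 1 + 1) := hi4
        _ = B * i' + 2 * B := by ring
    have h9 : i' * (2 ^ 3 * B) = 8 * (B * i') := by ring
    rw [h9]
    have h10 : 1 ≤ 2 ^ k := Nat.one_le_two_pow
    omega
  · -- the time
    have h1 : Real.log ((2 ^ (2 ^ k) : ℕ) : ℝ) ≤ 2 ^ k := by
      push_cast
      rw [Real.log_pow]
      push_cast
      have : Real.log 2 ≤ 1 := by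
        have := Real.log_two_lt_d9
        linarith
      have h2 : (0 : ℝ) ≤ 2 ^ k := by positivity
      nlinarith
    have h2 : 1 + Real.log ((2 ^ (2 ^ k) : ℕ) : ℝ) ≤ 2 ^ (k + 1) := by
      have : (1 : ℝ) ≤ 2 ^ k := one_le_pow₀ (by norm_num)
      rw [pow_succ]
      linarith
    have h3 : 0 ≤ 1 + Real.log ((2 ^ (2 ^ k) : ℕ) : ℝ) := by
      have : 0 ≤ Real.log ((2 ^ (2 ^ k) : ℕ) : ℝ) := by
        apply Real.log_nonneg
        exact_mod_cast Nat.one_le_two_pow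
      linarith
    calc C * ((2 ^ i : ℕ) : ℝ) ^ 2 * (1 + Real.log ((2 ^ (2 ^ k) : ℕ) : ℝ))
        ≤ 2 ^ c0 * ((2 ^ i : ℕ) : ℝ) ^ 2 * 2 ^ (k + 1) := by
          apply mul_le_mul _ h2 h3 (by positivity)
          exact mul_le_mul_of_nonneg_right hc0 (by positivity)
      _ = 2 ^ J := by
          push_cast
          rw [hJ, ← pow_mul, ← pow_add, ← pow_add]
          congr 1
          ring
  · -- the error
    have hC0 : 0 ≤ C := by linarith
    have e1 : Real.sqrt ((2 ^ (2 ^ (k - 1)) : ℕ) : ℝ) = 2 ^ (2 ^ k') := by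
      push_cast
      rw [hk'e, show k' + 2 - 1 = k' + 1 by omega, pow_succ 2 k', pow_mul,
        Real.sqrt_sq (by positivity)]
    rw [e1, mul_div_assoc', one_div_pow, div_le_div_iff₀ (by positivity) (by positivity), one_mul]
    have e2 : C ^ J ≤ (2 ^ c0) ^ J := pow_le_pow_left₀ hC0 hc0 J
    calc C * C ^ J * 2 ^ k ≤ 2 ^ c0 * (2 ^ c0) ^ J * 2 ^ k := by
          apply mul_le_mul_of_nonneg_right _ (by positivity)
          exact mul_le_mul hc0 e2 (by positivity) (by positivity)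
      _ = 2 ^ (c0 * (J + 1) + k) := by
          rw [← pow_mul, ← pow_add, ← pow_add]
          congr 1
          ring
      _ ≤ 2 ^ (2 ^ k') := by
          apply pow_le_pow_right₀ (by norm_num)
          have h4k : 2 ^ k = 4 * 2 ^ k' := by rw [hk'e, pow_add]; ring
          have f1 : 8 * (c0 * (J + 1)) ≤ 2 ^ k := by
            calc 8 * (c0 * (J + 1)) ≤ 8 * (c0 * (3 * i)) :=
                  Nat.mul_le_mul_left _ (Nat.mul_le_mul_left _ hJ3)
              _ ≤ B * i := by rw [hB]; nlinarith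
              _ ≤ 2 ^ k := hi3
          have f2 : 8 * k ≤ 2 ^ k := by
            refine le_trans ?_ hbig
            have g1 : 1 ≤ B := hBpos
            have g2 : 8 * k ≤ (c0 + 8) * (k + 1) ^ 2 := by
              calc 8 * k ≤ (c0 + 8) * (k + 1) := by nlinarith [Nat.zero_le (c0 * k)]
                _ ≤ (c0 + 8) * (k + 1) ^ 2 :=
                  Nat.mul_le_mul_left _ (Nat.le_self_pow (by norm_num) _)
            calc 8 * k ≤ 1 * ((c0 + 8) * (k + 1) ^ 2) := by omega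
              _ ≤ B * ((c0 + 8) * (k + 1) ^ 2) := Nat.mul_le_mul_right _ g1
              _ = B * (c0 + 8) * (k + 1) ^ 2 := by ring
          omega

/-- **No jump at `p_c`.** -/
theorem no_jump3 (hG : G.Connected) {R : Finset V}
    (hR : ∀ x : V, ∃ g : G ≃g G, g x ∈ R) (hpc : 0 < pc G) (hpc1 : pc G < 1)
    (hdrop : Drop2 G) (hpar : Par2 G)
    {θ : ℝ} (hθ : 0 < θ) (hθn : ∀ n x, θ ≤ phiB G n x (pc G)) : False := by
  obtain ⟨C, hC, hstep⟩ := hdrop (pc G / 2) (θ / 4) (by linarith) (by linarith)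
  obtain ⟨k0, hk0⟩ := hpar C hC
  -- the first scale
  obtain ⟨K1, hK1⟩ : ∃ K1 : ℕ, (1 / 2 : ℝ) ^ K1 < θ / 8 :=
    exists_pow_lt_of_lt_one (by positivity) (by norm_num)
  set k1 := max k0 K1 with hk1
  have hk1a : k0 ≤ k1 := le_max_left _ _
  have hk1b : (1 / 2 : ℝ) ^ k1 ≤ θ / 8 := by
    refine le_trans ?_ hK1.le
    exact pow_le_pow_of_le_one (by norm_num) (by norm_num) (le_max_right _ _)
  obtain ⟨p, hp1, hp2, hbase⟩ := base_phi hG hR hpc hpc1 hθ (2 ^ (2 ^ k1)) (fun x => hθn _ x)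
  have h0 : 0 < p := by linarith
  have h1 : p ≤ 1 := by linarith
  have hind : ∀ m : ℕ, ∀ x, θ / 2 - θ / 4 * (1 - (1 / 2) ^ m) ≤
      phiB G (2 ^ (2 ^ (k1 + m))) x p := by
    intro m
    induction m with
    | zero =>
      intro x
      have := hbase x
      simpa using this
    | succ m ih =>
      intro x
      set k := k1 + m with hk
      have hhalf0 : (0 : ℝ) < (1 / 2) ^ m := by positivity
      have hle : ∀ z, θ / 4 ≤ phiB G (2 ^ (2 ^ k)) z p := by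
        intro z
        have := ih z
        nlinarith
      obtain ⟨l, J, r, hl, hl2, h2J, hvol, hJ, herr⟩ := hk0 k (by omega)
      have e1 := hstep p (2 ^ (2 ^ k)) l J r hp1 h1 hle hl hl2 h2J hvol hJ x
      have e2 := e1.trans herr
      have e3 : (2 ^ (2 ^ k)) ^ 2 = 2 ^ (2 ^ (k1 + (m + 1))) := by
        rw [← pow_mul, ← add_assoc, ← hk, pow_succ 2 k]
      rw [e3] at e2
      have e4 : (1 / 2 : ℝ) ^ k = (1 / 2) ^ k1 * (1 / 2) ^ m := by rw [hk, pow_add]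
      have e5 : (1 / 2 : ℝ) ^ k ≤ θ / 8 * (1 / 2) ^ m := by
        rw [e4]
        exact mul_le_mul_of_nonneg_right hk1b hhalf0.le
      have e6 := ih x
      rw [pow_succ]
      linarith
  have hlow : ∀ m : ℕ, ∀ x, θ / 4 ≤ phiB G (2 ^ (2 ^ (k1 + m))) x p := by
    intro m x
    have := hind m x
    have h3 : (0 : ℝ) < (1 / 2) ^ m := by positivity
    nlinarith
  obtain ⟨x⟩ := hG.nonempty
  have hlim := tendsto_phiB_zero G hG h0.le h1 hp2 x
  obtain ⟨K, hK⟩ := Filter.eventually_atTop.1 (hlim.eventually (gt_mem_nhds (show (0 : ℝ) < θ / 4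
    by linarith)))
  have hKle : K ≤ 2 ^ (2 ^ (k1 + K)) := by
    have e1 := Nat.lt_two_pow_self (n := k1 + K)
    have e2 := Nat.lt_two_pow_self (n := 2 ^ (k1 + K))
    omega
  have h3 := hK _ hKle
  have h4 := hlow K x
  linarith

end param

/-- **The seam from (TC).** -/
theorem seam_of_tcs (hT : ∀ (V : Type) [DecidableEq V], TCS V) : FULL.Seam := by
  intro V _ _ G _ hG R hR _ hAm hw hpc hpc1 θ hθ hθn
  obtain ⟨o⟩ := hG.nonempty
  exact no_jump3 hG hR hpc hpc1 (drop2 (hT V) hG hR hAm) (param2 hG hR (hw.1 o)) hθ hθn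

end Vale.Agent.P151.TC.H149
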