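import Vale.Agent.P151.TC.H149.Cons
import Vale.Agent.P151.TC.H510.Def

/-!
# From the three-cluster inequality to the hypothesis of the consumer
-/

set_option autoImplicit false

open Finset SimpleGraph

namespace Vale.Agent.P151.TC.H149

open Vale.Agent.P151 Vale.Agent.P151.QP Vale.Agent.P151.R2.H279

universe u

variable {V : Type u} [DecidableEq V]

lemma big_eq_I1 (n : ℕ) (z : V) : big n z = fun S : Finset (Sym2 V) => I1 (n ≤ csz S z) := by
  funext S
  unfold big I1
  by_cases h : n ≤ csz S z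
  · rw [if_pos h, if_pos h]
  · rw [if_neg h, if_neg h]

/-- `z` cannot be joined both to `x` and to `y` when these are in distinct clusters. -/
lemma DD_mul_big_le (n : ℕ) (x y z : V) (S : Finset (Sym2 V)) :
    DD n x y S * big n z S ≤ DD n x z S + DD n z y S := by
  have hb : big n z S = I1 (n ≤ csz S z) := congrFun (big_eq_I1 n z) S
  rw [hb]
  unfold DD
  by_cases h : ¬ Cn S x y ∧ n ≤ csz S x ∧ n ≤ csz S y
  · by_cases hz : n ≤ csz S z
    · rw [I1_true h, I1_true hz]
      by_cases hxz : Cn S x z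
      · have hzy : ¬ Cn S z y := fun hzy => h.1 (hxz.trans hzy)
        rw [I1_true (show ¬ Cn S z y ∧ n ≤ csz S z ∧ n ≤ csz S y from ⟨hzy, hz, h.2.2⟩)]
        have := I1_nonneg (¬ Cn S x z ∧ n ≤ csz S x ∧ n ≤ csz S z)
        linarith
      · rw [I1_true (show ¬ Cn S x z ∧ n ≤ csz S x ∧ n ≤ csz S z from ⟨hxz, h.2.1, hz⟩)]
        have := I1_nonneg (¬ Cn S z y ∧ n ≤ csz S z ∧ n ≤ csz S y)
        linarith
    · rw [I1_false hz, mul_zero]
      exact add_nonneg (I1_nonneg _) (I1_nonneg _)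
  · rw [I1_false h, zero_mul]
    exact add_nonneg (I1_nonneg _) (I1_nonneg _)

/-- The three-cluster inequality with the constant `K` gives the hypothesis of the consumer. -/
theorem tcs_of {K : ℝ} (hK : 1 ≤ K)
    (h : ∀ p : ℝ, 0 ≤ p → p ≤ 1 → ∀ (Λ : Finset (Sym2 V)) (n : ℕ) (x y z : V),
      PD p Λ n x y * Ex p Λ (big n z) ≤ K * Ex p Λ (fun S => DD n x y S * big n z S)) :
    TCS V := by
  refine ⟨K, hK, fun p h0 h1 Λ n x y z => ?_⟩
  have h2 : Ex p Λ (fun S => DD n x y S * big n z S) ≤ PD p Λ n x z + PD p Λ n z y := by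
    unfold PD
    rw [← Ex_add]
    exact Ex_mono h0 h1 fun S _ => DD_mul_big_le n x y z S
  calc Ex p Λ (big n z) * PD p Λ n x y = PD p Λ n x y * Ex p Λ (big n z) := mul_comm _ _
    _ ≤ K * Ex p Λ (fun S => DD n x y S * big n z S) := h p h0 h1 Λ n x y z
    _ ≤ K * (PD p Λ n x z + PD p Λ n z y) := mul_le_mul_of_nonneg_left h2 (by linarith)

/-- The seam from `TCStmt` of 510. -/
theorem seam_of_tcStmt (h : TCStmt) : FULL.Seam :=
  seam_of_tcs fun V _ => tcs_of (K := 11) (by norm_num) fun p h0 h1 Λ n x y z => by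
    rw [big_eq_I1]
    exact h V p h0 h1 Λ n x y z

/-- The seam from the form with `big`, constant 11. -/
theorem seam_of_big (h : ∀ (V : Type) [DecidableEq V] (p : ℝ), 0 ≤ p → p ≤ 1 →
    ∀ (Λ : Finset (Sym2 V)) (n : ℕ) (x y z : V),
      PD p Λ n x y * Ex p Λ (big n z) ≤ 11 * Ex p Λ (fun S => DD n x y S * big n z S)) :
    FULL.Seam :=
  seam_of_tcs fun V _ => tcs_of (K := 11) (by norm_num) fun p h0 h1 Λ n x y z =>
    h V p h0 h1 Λ n x y z

end Vale.Agent.P151.TC.H149
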