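import Vale.Agent.P151.TC.H149.Bridge
import Vale.Agent.P151.H990.TC

/-!
# The seam of the full answer, proved
-/

set_option autoImplicit false

open Finset SimpleGraph

namespace Vale.Agent.P151.TC.H149

open Vale.Agent.P151 Vale.Agent.P151.QP Vale.Agent.P151.R2.H279

/-- The three-cluster inequality (the proof is in `H990/TC.lean`). -/
theorem tcs (V : Type) [DecidableEq V] : TCS V :=
  ⟨10, by norm_num, fun p h0 h1 Λ n x y z => by
    rw [big_eq_I1, mul_comm]
    exact H990.PD_triangle h0 h1 Λ n x y z⟩

/-- The seam of the full answer. -/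
theorem seam : FULL.Seam := seam_of_tcs fun V _ => tcs V

end Vale.Agent.P151.TC.H149
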